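import Vale.Agent.P221X.Base.KK

/-!
# P221X: the interfaces of the algebraic blocks (see `notes/P221/h30-proof.md`)

* `FRing` : complete filtered ring with polynomial associated graded ring;
* `GD` : the strict Morava stabiliser group acting on `O = F[[u]]` (section 1);
* `RD` : the ring `R = O[[G]] / T` acting on `K = F((u))` (section 2); `RF` : the ring `O[[G]]`;
* `InjD` : the injective module `Q / O` with its index system (section 3);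
* `ThetaData`, `Bad`, `Key` : the element `θ` (sections 4, 5);
* `AlgOut` : everything the topological blocks use about `R`.
-/

noncomputable section

namespace Vale.Agent.P221X

open PowerSeries MulOpposite

/-! ### Filtered rings -/

/-- A complete separated filtration of the `F`-algebra `A` whose associated graded ring is the
polynomial ring on `ι` with weights `wt`. `sym w` is only meaningful on `fil w`. -/
structure FRing (F : Type) [Field F] (ι : Type) (wt : ι → ℕ) (A : Type) [Ring A] [Algebra F A] where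
  fil : ℕ → Submodule F A
  fil_zero : ∀ a, a ∈ fil 0
  anti : ∀ {v w : ℕ}, v ≤ w → fil w ≤ fil v
  mul_mem : ∀ {v w : ℕ} {a b : A}, a ∈ fil v → b ∈ fil w → a * b ∈ fil (v + w)
  sym : ℕ → A →ₗ[F] MvPolynomial ι F
  sym_hom : ∀ {w : ℕ} {a : A}, a ∈ fil w → (sym w a).IsWeightedHomogeneous wt w
  sym_eq_zero : ∀ {w : ℕ} {a : A}, a ∈ fil w → (sym w a = 0 ↔ a ∈ fil (w + 1))
  sym_surj : ∀ {w : ℕ} {φ : MvPolynomial ι F}, φ.IsWeightedHomogeneous wt w →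
    ∃ a ∈ fil w, sym w a = φ
  sym_mul : ∀ {v w : ℕ} {a b : A}, a ∈ fil v → b ∈ fil w →
    sym (v + w) (a * b) = sym v a * sym w b
  sym_one : sym 0 1 = 1
  sep : ∀ a : A, (∀ w, a ∈ fil w) → a = 0
  complete : ∀ s : ℕ → A, (∀ n, s (n + 1) - s n ∈ fil n) → ∃ a, ∀ n, a - s n ∈ fil n

/-- the weights of `u, e₁, e₂, h` -/
def wt4 : Fin 4 → ℕ := ![4, 1, 1, 3]

/-- the weights of `T` (`none`) and `u, e₁, e₂, h` -/
def wt5 : Option (Fin 4) → ℕ := fun i => i.elim 3 wt4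

/-! ### Group data -/

/-- Keating's levels: `1, p + 2, p² + 2p + 2, …` -/
def lev0 (p : ℕ) : ℕ → ℕ
  | 0 => 1
  | l + 1 => p * lev0 p l + 2

/-- Keating's levels: `2, 2p + 2, 2p² + 2p + 2, …` -/
def lev1 (p : ℕ) : ℕ → ℕ
  | 0 => 2
  | l + 1 => p * lev1 p l + 2

/-- `a` has depth at least `n` : `a(u) ≡ u` modulo `u ^ (n + 1)` -/
def Dep {F : Type} [Field F] (a : PowerSeries F ≃ₐ[F] PowerSeries F) (n : ℕ) : Prop :=
  (X : PowerSeries F) ^ (n + 1) ∣ a X - X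

/-- The strict Morava stabiliser group `G = 1 + Π O_D` with its action on `O = F[[u]]`,
`F = 𝔽_{p²}`. `Gf i = 1 + Π^i O_D`, `γ₁ = 1 + Π`, `γ₂ = 1 + [ω] Π`, `g = 1 + [ω] p`, `ψ = 1 + p`;
`rot : u ↦ ζ u` with `ζ` of order `p + 1`, and `cj` is the conjugation by `rot`. -/
structure GD (p : ℕ) (F : Type) [Field F] where
  G : Type
  [grp : Group G]
  act : G →* (PowerSeries F ≃ₐ[F] PowerSeries F)
  actK : G →* (KK F ≃ₐ[F] KK F)
  actK_alg : ∀ a f, actK a (algebraMap (PowerSeries F) (KK F) f) =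
    algebraMap (PowerSeries F) (KK F) (act a f)
  dep_one : ∀ a, Dep (act a) 1
  Gf : ℕ → Subgroup G
  Gf_one : ∀ a, a ∈ Gf 1
  Gf_anti : ∀ {i j : ℕ}, i ≤ j → Gf j ≤ Gf i
  Gf_normal : ∀ i, (Gf i).Normal
  Gf_comm : ∀ {i j : ℕ} {a b : G}, a ∈ Gf i → b ∈ Gf j → a * b * a⁻¹ * b⁻¹ ∈ Gf (i + j)
  Gf_pow : ∀ {i : ℕ} {a : G}, 1 ≤ i → a ∈ Gf i → a ^ p ∈ Gf (i + 2)
  γ₁ : G
  γ₂ : G
  g : G
  ψ : G
  g_mem : g ∈ Gf 2
  ψ_mem : ψ ∈ Gf 2
  odd_span : ∀ (l : ℕ) (a : G), a ∈ Gf (2 * l + 1) →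
    ∃ i j : ℕ, ((γ₁ ^ p ^ l) ^ i * (γ₂ ^ p ^ l) ^ j)⁻¹ * a ∈ Gf (2 * l + 2)
  odd_ind : ∀ (l : ℕ) (i j : ℤ), (γ₁ ^ p ^ l) ^ i * (γ₂ ^ p ^ l) ^ j ∈ Gf (2 * l + 2) →
    (p : ℤ) ∣ i ∧ (p : ℤ) ∣ j
  even_span : ∀ (l : ℕ) (a : G), a ∈ Gf (2 * l + 2) →
    ∃ i j : ℕ, ((g ^ p ^ l) ^ i * (ψ ^ p ^ l) ^ j)⁻¹ * a ∈ Gf (2 * l + 3)
  even_ind : ∀ (l : ℕ) (i j : ℤ), (g ^ p ^ l) ^ i * (ψ ^ p ^ l) ^ j ∈ Gf (2 * l + 3) →
    (p : ℤ) ∣ i ∧ (p : ℤ) ∣ j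
  ψ_comm : ∀ a, ψ * a = a * ψ
  act_ψ : act ψ = 1
  cont : ∀ n, ∃ N, ∀ a ∈ Gf N, Dep (act a) n
  keat_odd : ∀ (l : ℕ) (a : G), a ∈ Gf (2 * l + 1) → a ∉ Gf (2 * l + 2) →
    ¬ Dep (act a) (lev1 p l)
  keat_even : ∀ (l : ℕ) (a : G), a ∈ Gf (2 * l + 2) → (∀ z : ℤ, ψ ^ z * a ∉ Gf (2 * l + 3)) →
    ¬ Dep (act a) (lev0 p (l + 1))
  ζ : F
  ζ_prim : IsPrimitiveRoot ζ (p + 1)
  rot : PowerSeries F ≃ₐ[F] PowerSeries F
  rot_coeff : ∀ f n, coeff n (rot f) = ζ ^ n * coeff n f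
  rotK : KK F ≃ₐ[F] KK F
  rotK_cf : ∀ f (n : ℤ), KK.cf n (rotK f) = ζ ^ n * KK.cf n f
  cj : G ≃* G
  act_cj : ∀ a f, act (cj a) (rot f) = rot (act a f)
  cj_mem : ∀ i a, a ∈ Gf i → cj a ∈ Gf i
  cj_g : cj g = g
  cj_ψ : cj ψ = ψ
  cj_pow : ∀ a, (cj ^ (p + 1)) a = a

attribute [instance] GD.grp

/-! ### Ring data -/

variable {p : ℕ} {F : Type} [Field F]

/-- The ring `R = O[[G]] / (ψ - 1)`, acting on `K`. -/
structure RD (D : GD p F) (R : Type) [Ring R] [Algebra F R] extends FRing F (Fin 4) wt4 R where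
  sc : PowerSeries F →ₐ[F] R
  gr : D.G →* R
  skew : ∀ a f, gr a * sc f = sc (D.act a f) * gr a
  gr_ψ : gr D.ψ = 1
  u_mem : sc X ∈ fil 4
  u_sym : sym 4 (sc X) = MvPolynomial.X 0
  e₁_sym : sym 1 (gr D.γ₁ - 1) = MvPolynomial.X 1
  e₂_sym : sym 1 (gr D.γ₂ - 1) = MvPolynomial.X 2
  h_sym : sym 3 (gr D.g - 1) = MvPolynomial.X 3
  wt_odd : ∀ (l : ℕ) (a : D.G), a ∈ D.Gf (2 * l + 1) → gr a - 1 ∈ fil (p ^ l)
  wt_even : ∀ (l : ℕ) (a : D.G), a ∈ D.Gf (2 * l + 2) → gr a - 1 ∈ fil (3 * p ^ l)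
  dense : ∀ (r : R) (w : ℕ), ∃ c : D.G →₀ PowerSeries F,
    r - c.sum (fun a f => sc f * gr a) ∈ fil w
  /-- `u` is a normal element -/
  u_normal : ∀ r : R, ∃ r' : R, r * sc X = sc X * r'
  u_normal' : ∀ r : R, ∃ r' : R, sc X * r = r' * sc X
  mu : R ≃ₐ[F] R
  mu_sc : ∀ f, mu (sc f) = sc (D.rot f)
  mu_gr : ∀ a, mu (gr a) = gr (D.cj a)
  mu_fil : ∀ {w : ℕ} {r : R}, r ∈ fil w → mu r ∈ fil w
  mu_pow : ∀ r, (mu ^ (p + 1)) r = r
  op : R →ₐ[F] Module.End F (KK F)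
  op_sc : ∀ f z, op (sc f) z = algebraMap (PowerSeries F) (KK F) f * z
  op_gr : ∀ a z, op (gr a) z = D.actK a z
  op_mu : ∀ r z, op (mu r) (D.rotK z) = D.rotK (op r z)
  gain : ∀ {n : ℕ} {r : R} {m : ℤ} {z : KK F}, r ∈ fil (4 * n) → z ∈ KK.ge m →
    op r z ∈ KK.ge (m + n)

/-- The ring `Rf = O[[G]]` over `R = Rf / T`. `lv n l` is the projection onto
`(O / u^n)[G / G_l]`, written as the coefficients of `u ^ i · [c]`, `i < n`. -/
structure RF {D : GD p F} {R : Type} [Ring R] [Algebra F R] (S : RD D R)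
    (Rf : Type) [Ring Rf] [Algebra F Rf] extends FRing F (Option (Fin 4)) wt5 Rf where
  sc : PowerSeries F →ₐ[F] Rf
  gr : D.G →* Rf
  skew : ∀ a f, gr a * sc f = sc (D.act a f) * gr a
  pr : Rf →ₐ[F] R
  pr_surj : Function.Surjective pr
  pr_sc : ∀ f, pr (sc f) = S.sc f
  pr_gr : ∀ a, pr (gr a) = S.gr a
  T_comm : ∀ r, (gr D.ψ - 1) * r = r * (gr D.ψ - 1)
  T_reg : ∀ r, (gr D.ψ - 1) * r = 0 → r = 0
  pr_eq_zero : ∀ r, pr r = 0 ↔ ∃ s, r = (gr D.ψ - 1) * s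
  u_mem : sc X ∈ fil 4
  wt_odd : ∀ (l : ℕ) (a : D.G), a ∈ D.Gf (2 * l + 1) → gr a - 1 ∈ fil (p ^ l)
  dense : ∀ (r : Rf) (w : ℕ), ∃ c : D.G →₀ PowerSeries F,
    r - c.sum (fun a f => sc f * gr a) ∈ fil w
  mu : Rf ≃ₐ[F] Rf
  mu_sc : ∀ f, mu (sc f) = sc (D.rot f)
  mu_gr : ∀ a, mu (gr a) = gr (D.cj a)
  mu_fil : ∀ {w : ℕ} {r : Rf}, r ∈ fil w → mu r ∈ fil w
  pr_mu : ∀ r, pr (mu r) = S.mu (pr r)
  /-- the coefficient of `u ^ i · [c]` in the image of `r` in `O[G / G_l]` -/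
  lv : ∀ (l : ℕ) (_ : ℕ) (_ : D.G ⧸ D.Gf l), Rf →ₗ[F] F
  lv_gen : ∀ l i c (f : PowerSeries F) (a : D.G), lv l i c (sc f * gr a) =
    open Classical in if (a : D.G ⧸ D.Gf l) = c then coeff i f else 0
  lv_fil : ∀ l i, ∃ w, ∀ r ∈ fil w, ∀ c, lv l i c r = 0
  fil_lv : ∀ w, ∃ l n, ∀ r, (∀ i < n, ∀ c, lv l i c r = 0) → r ∈ fil w

/-! ### The injective module -/

/-- An injective right `Γ`-module `I` with a directed system of elements `i x` killed by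
`c x`; an arrow `(a, b) : x ⟶ y` has `c y * a = b * c x` and `i y · b = i x`. -/
structure InjD (Γ : Type) [Ring Γ] where
  I : Type
  [acg : AddCommGroup I]
  [mod : Module Γᵐᵒᵖ I]
  inj : Module.Injective Γᵐᵒᵖ I
  Idx : Type
  c : Idx → Γ
  i : Idx → I
  c_reg : ∀ x r, c x * r = 0 → r = 0
  i_c : ∀ x, op (c x) • i x = 0
  Arr : Idx → Idx → Γ → Γ → Prop
  arr_c : ∀ {x y a b}, Arr x y a b → c y * a = b * c x
  arr_i : ∀ {x y a b}, Arr x y a b → op b • i y = i x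
  arr_refl : ∀ x, Arr x x 1 1
  arr_trans : ∀ {x y z a b a' b'}, Arr x y a b → Arr y z a' b' → Arr x z (a' * a) (b' * b)
  directed : ∀ x y, ∃ z a b a' b', Arr x z a b ∧ Arr y z a' b'
  exhaust : ∀ m : I, ∃ (x : Idx) (r : Γ), m = op r • i x
  kernel : ∀ (x : Idx) (r : Γ), op r • i x = 0 → ∃ y a b s, Arr x y a b ∧ b * r = c y * s

attribute [instance] InjD.acg InjD.mod

/-! ### The element `θ` -/

section Theta

variable {R : Type} [Ring R] [Algebra F R]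

/-- `θ` (acting on `K` by `op`) with a discrete complement `c` of its image on `K' = F((u^d))`,
a discrete complement `pol` of its compact kernel, and the linked compact kernel elements `q`. -/
structure ThetaData (d : ℕ) (op : R →ₐ[F] Module.End F (KK F)) (θ : R) where
  ι : Type
  κ : Type
  c : ι → KK F
  q : ι → KK F
  pol : κ → KK F
  c_inv : ∀ i, c i ∈ KK.inv d
  q_inv : ∀ i, q i ∈ KK.inv d
  pol_inv : ∀ j, pol j ∈ KK.inv d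
  q_ker : ∀ i, op θ (q i) = 0
  pol_ker : ∀ j, op θ (pol j) = 0
  q_ge : ∀ i, q i ∈ KK.ge 0
  ker_span : ∀ z ∈ KK.inv d, op θ z = 0 →
    ∃ μ : κ →₀ F, z - Finsupp.linearCombination F pol μ ∈ KK.ge 0
  pol_fin : ∀ N : ℕ, {μ : κ →₀ F | Finsupp.linearCombination F pol μ ∈ KK.ge (-N : ℤ)}.Finite
  cok_span : ∀ w ∈ KK.inv d, ∃ (lam : ι →₀ F) (z : KK F), z ∈ KK.inv d ∧
    w - Finsupp.linearCombination F c lam - op θ z ∈ KK.ge 0
  cok_fin : ∀ N : ℕ, {lam : ι →₀ F | ∃ z ∈ KK.inv d,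
    Finsupp.linearCombination F c lam - op θ z ∈ KK.ge (-N : ℤ)}.Finite
  cross_fin : ∀ N : ℕ, ∃ s : Finset (KK F), ∀ z ∈ KK.inv d, op θ z ∈ KK.ge (-N : ℤ) →
    ∃ w ∈ s, ∃ z' ∈ KK.inv d, z' ∈ KK.ge (-N : ℤ) ∧ op θ z = w + op θ z'

namespace ThetaData

variable {d : ℕ} {op : R →ₐ[F] Module.End F (KK F)} {θ : R} (Θ : ThetaData d op θ)

/-- the elements `w` whose class in the cokernel of `θ` is linked to a kernel element with a pole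
of order at most `N` which is killed by `s` -/
def Bad (s : R) (k N : ℕ) (w : KK F) : Prop :=
  ∃ (lam : Θ.ι →₀ F) (μ : Θ.κ →₀ F) (z : KK F), z ∈ KK.inv d ∧
    w - Finsupp.linearCombination F Θ.c lam - op θ z ∈ KK.ge (-k : ℤ) ∧
    Finsupp.linearCombination F Θ.q lam + Finsupp.linearCombination F Θ.pol μ ∈ KK.ge (-N : ℤ) ∧
    op s (Finsupp.linearCombination F Θ.q lam + Finsupp.linearCombination F Θ.pol μ) = 0

/-- The key proposition, for the classes `PL` (of `s`) and `PR` (of `r`). -/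
def Key (PL PR : R → Prop) : Prop :=
  ∀ s r : R, PL s → PR r → ∀ k N₀ : ℕ, ∃ N ≥ N₀, ∃ f ∈ KK.ge (-N : ℤ),
    ¬ Θ.Bad s k N (KK.prj d (op r f))

end ThetaData

end Theta

namespace RD

variable {D : GD p F} {R : Type} [Ring R] [Algebra F R] (S : RD D R)

/-- `θ` is `μ`-invariant with symbol `h` -/
structure IsTheta (θ : R) : Prop where
  mu : S.mu θ = θ
  mem : θ ∈ S.fil 3
  sym : S.sym 3 θ = MvPolynomial.X 3
  modu : ∃ r, θ = S.gr D.g - 1 + S.sc X * r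

/-- `s ∉ R[1/u] θ` -/
def NotL (θ s : R) : Prop := ∀ (a : ℕ) (x : R), S.sc X ^ a * s ≠ x * θ

/-- `r ∉ θ R[1/u]` -/
def NotR (θ r : R) : Prop := ∀ (a : ℕ) (x : R), r * S.sc X ^ a ≠ θ * x

end RD

/-- Everything the topological blocks use about the ring `R`. -/
structure AlgOut {D : GD p F} {R : Type} [Ring R] [Algebra F R] (S : RD D R) where
  θ : R
  θ_mu : S.mu θ = θ
  J : InjD R
  x₀ : J.Idx
  c_x₀ : J.c x₀ = θ
  i_x₀ : J.i x₀ ≠ 0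
  Θ : ThetaData (p + 1) S.op θ
  key : Θ.Key (fun s => ∃ y b, J.Arr x₀ y s b) (fun r => op r • J.i x₀ ≠ 0)

end Vale.Agent.P221X
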