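import Mathlib

/-!
# P221X: the field `K = F((u))` with one coherent set of instances

`KK F` is a type synonym of `HahnSeries ℤ F` whose `F`-algebra structure has the coefficientwise
scalar multiplication (the instances found for `LaurentSeries F` form a diamond).

* `KK.cf n` : the coefficient of `u ^ n`, a linear map; `KK.ext`;
* `KK.uz n` : the monomial `u ^ n`, `n : ℤ`;
* `KK.ge n` : the subspace `u ^ n F[[u]]`;
* `KK.inv d` : the subspace of series in `u ^ d`; `KK.prj d` : the projection onto it.
-/

noncomputable section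

namespace Vale.Agent.P221X

open PowerSeries

/-- the field of Laurent series `F((u))` -/
def KK (F : Type) [Field F] : Type := HahnSeries ℤ F

namespace KK

variable {F : Type} [Field F]

instance : Field (KK F) := inferInstanceAs (Field (HahnSeries ℤ F))

instance : Algebra F (KK F) := (HahnSeries.instAlgebra : Algebra F (HahnSeries ℤ F))

instance : Algebra (PowerSeries F) (KK F) :=
  (HahnSeries.ofPowerSeries ℤ F : PowerSeries F →+* HahnSeries ℤ F).toAlgebra

instance : IsFractionRing (PowerSeries F) (KK F) :=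
  inferInstanceAs (IsFractionRing (PowerSeries F) (LaurentSeries F))

/-- the underlying Hahn series -/
def toH (f : KK F) : HahnSeries ℤ F := f

/-- a Hahn series as an element of `KK F` -/
def ofH (f : HahnSeries ℤ F) : KK F := f

@[simp] theorem toH_ofH (f : HahnSeries ℤ F) : toH (ofH f) = f := rfl
@[simp] theorem ofH_toH (f : KK F) : ofH (toH f) = f := rfl
theorem toH_mul (f g : KK F) : toH (f * g) = toH f * toH g := rfl
theorem toH_add (f g : KK F) : toH (f + g) = toH f + toH g := rfl
theorem toH_one : toH (1 : KK F) = 1 := rfl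
theorem toH_zero : toH (0 : KK F) = 0 := rfl
theorem toH_smul (c : F) (f : KK F) : toH (c • f) = c • toH f := rfl
theorem toH_algebraMap (f : PowerSeries F) :
    toH (algebraMap (PowerSeries F) (KK F) f) = HahnSeries.ofPowerSeries ℤ F f := rfl

/-- the coefficient of `u ^ n` -/
def cf (n : ℤ) : KK F →ₗ[F] F where
  toFun f := (toH f).coeff n
  map_add' f g := by rw [toH_add]; simp
  map_smul' c f := by rw [toH_smul]; simp

theorem cf_apply (n : ℤ) (f : KK F) : cf n f = (toH f).coeff n := rfl

@[ext] theorem ext {f g : KK F} (h : ∀ n, cf n f = cf n g) : f = g :=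
  HahnSeries.ext (funext h)

instance : IsScalarTower F (PowerSeries F) (KK F) :=
  IsScalarTower.of_algebraMap_eq fun c => by
    change (HahnSeries.C c : HahnSeries ℤ F) = HahnSeries.ofPowerSeries ℤ F (PowerSeries.C c)
    rw [HahnSeries.ofPowerSeries_C]

/-- the monomial `u ^ n` -/
def uz (n : ℤ) : KK F := ofH (HahnSeries.single n 1)

theorem cf_uz (m n : ℤ) : cf m (uz n : KK F) = if m = n then 1 else 0 := by
  classical
  rw [cf_apply, uz, toH_ofH, HahnSeries.coeff_single]
  split_ifs <;> rfl

theorem uz_add (m n : ℤ) : (uz (m + n) : KK F) = uz m * uz n := by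
  have : (HahnSeries.single (m + n) 1 : HahnSeries ℤ F) =
      HahnSeries.single m 1 * HahnSeries.single n 1 := by
    rw [HahnSeries.single_mul_single, one_mul]
  exact this

@[simp] theorem uz_zero : (uz 0 : KK F) = 1 := rfl

theorem cf_uz_mul (m n : ℤ) (f : KK F) : cf (m + n) (uz n * f) = cf m f := by
  change (HahnSeries.single n (1 : F) * toH f).coeff (m + n) = (toH f).coeff m
  rw [HahnSeries.coeff_single_mul_add, one_mul]

theorem algebraMap_X : algebraMap (PowerSeries F) (KK F) X = uz 1 := by
  change HahnSeries.ofPowerSeries ℤ F X = HahnSeries.single 1 1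
  rw [HahnSeries.ofPowerSeries_X]

theorem cf_algebraMap (f : PowerSeries F) (n : ℕ) :
    cf (n : ℤ) (algebraMap (PowerSeries F) (KK F) f) = PowerSeries.coeff n f :=
  LaurentSeries.coeff_coe_powerSeries f n

theorem cf_algebraMap_neg (f : PowerSeries F) {n : ℤ} (hn : n < 0) :
    cf n (algebraMap (PowerSeries F) (KK F) f) = 0 := by
  have := PowerSeries.coeff_coe (f := f) n
  rw [if_pos hn] at this
  exact this

/-- `u ^ n F[[u]]` : the series all of whose coefficients below `n` vanish -/
def ge (n : ℤ) : Submodule F (KK F) where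
  carrier := {f | ∀ m < n, cf m f = 0}
  add_mem' := fun {f g} hf hg m hm => by rw [map_add, hf m hm, hg m hm, add_zero]
  zero_mem' := fun m _ => map_zero _
  smul_mem' := fun c f hf m hm => by rw [map_smul, hf m hm, smul_zero]

theorem mem_ge {n : ℤ} {f : KK F} : f ∈ ge n ↔ ∀ m < n, cf m f = 0 := Iff.rfl

theorem ge_mono {m n : ℤ} (h : m ≤ n) : (ge n : Submodule F (KK F)) ≤ ge m :=
  fun _ hf k hk => hf k (lt_of_lt_of_le hk h)

theorem exists_ge (f : KK F) : ∃ n, f ∈ ge n :=
  ⟨(toH f).order, fun _ hm => HahnSeries.coeff_eq_zero_of_lt_order hm⟩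

theorem eq_zero_of_ge {f : KK F} (h : ∀ n, f ∈ ge n) : f = 0 :=
  ext fun n => by rw [h (n + 1) n (by omega), map_zero]

theorem uz_mem_ge (n : ℤ) : (uz n : KK F) ∈ ge n := fun m hm => by
  rw [cf_uz, if_neg hm.ne]

theorem mul_mem_ge {m n : ℤ} {f g : KK F} (hf : f ∈ ge m) (hg : g ∈ ge n) :
    f * g ∈ ge (m + n) := fun k hk => by
  rw [cf_apply, toH_mul, HahnSeries.coeff_mul]
  refine Finset.sum_eq_zero fun ij hij => ?_
  have h := (Finset.mem_antidiagonal.1 hij).2.2
  by_cases h1 : ij.1 < m
  · rw [show (toH f).coeff ij.1 = 0 from hf _ h1, zero_mul]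
  · rw [show (toH g).coeff ij.2 = 0 from hg _ (by omega), mul_zero]

theorem algebraMap_mem_ge (f : PowerSeries F) : algebraMap (PowerSeries F) (KK F) f ∈ ge 0 :=
  fun _ hm => cf_algebraMap_neg f hm

/-- the series in `u ^ d` -/
def inv (d : ℕ) : Submodule F (KK F) where
  carrier := {f | ∀ m : ℤ, ¬ (d : ℤ) ∣ m → cf m f = 0}
  add_mem' := fun {f g} hf hg m hm => by rw [map_add, hf m hm, hg m hm, add_zero]
  zero_mem' := fun m _ => map_zero _
  smul_mem' := fun c f hf m hm => by rw [map_smul, hf m hm, smul_zero]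

theorem mem_inv {d : ℕ} {f : KK F} : f ∈ inv d ↔ ∀ m : ℤ, ¬ (d : ℤ) ∣ m → cf m f = 0 := Iff.rfl

/-- the series with the coefficients `a n`, for `a` vanishing below some bound -/
def mk (a : ℤ → F) (N : ℤ) (h : ∀ m < N, a m = 0) : KK F :=
  ofH ⟨a, (BddBelow.isWF (s := Function.support a)
    ⟨N, fun m hm => not_lt.1 fun h' => (Function.mem_support.1 hm) (h m h')⟩).isPWO⟩

@[simp] theorem cf_mk (a : ℤ → F) (N : ℤ) (h : ∀ m < N, a m = 0) (n : ℤ) :
    cf n (mk a N h) = a n := rfl

open Classical in
/-- the projection onto the series in `u ^ d` -/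
def prj (d : ℕ) : KK F →ₗ[F] KK F where
  toFun f := mk (fun m => if (d : ℤ) ∣ m then cf m f else 0) (toH f).order fun m hm => by
    split_ifs
    · exact HahnSeries.coeff_eq_zero_of_lt_order hm
    · rfl
  map_add' f g := ext fun n => by
    simp only [cf_mk, map_add]; split_ifs <;> simp
  map_smul' c f := ext fun n => by
    simp only [cf_mk, map_smul, RingHom.id_apply]; split_ifs <;> simp

open Classical in
theorem cf_prj (d : ℕ) (f : KK F) (n : ℤ) :
    cf n (prj d f) = if (d : ℤ) ∣ n then cf n f else 0 := rfl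

theorem prj_mem_inv (d : ℕ) (f : KK F) : prj d f ∈ inv d := fun m hm => by
  rw [cf_prj, if_neg hm]

theorem prj_of_mem {d : ℕ} {f : KK F} (hf : f ∈ inv d) : prj d f = f := ext fun n => by
  rw [cf_prj]; split_ifs with h
  · rfl
  · exact (hf n h).symm

theorem prj_mem_ge (d : ℕ) {n : ℤ} {f : KK F} (hf : f ∈ ge n) : prj d f ∈ ge n := fun m hm => by
  rw [cf_prj, hf m hm, ite_self]

/-- limits: a sequence whose successive differences tend to zero converges -/
theorem exists_lim (s : ℕ → KK F) (N : ℤ) (h : ∀ n : ℕ, s (n + 1) - s n ∈ ge (N + n)) :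
    ∃ f : KK F, ∀ n : ℕ, f - s n ∈ ge (N + n) := by
  obtain ⟨M, hM⟩ := exists_ge (s 0)
  have key : ∀ n k : ℕ, s (n + k) - s n ∈ ge (N + n) := fun n k => by
    induction k with
    | zero => simp
    | succ k ih =>
      have h1 := ge_mono (F := F) (show N + (n : ℤ) ≤ N + ((n + k : ℕ) : ℤ) by push_cast; omega)
        (h (n + k))
      have := add_mem h1 ih
      rwa [sub_add_sub_cancel] at this
  refine ⟨mk (fun m => cf m (s (m - N + 1).toNat)) (min M N) fun m hm => ?_, fun n m hm => ?_⟩
  · have h1 := key 0 (m - N + 1).toNat m (by simp; omega)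
    rw [map_sub, hM m (by omega), sub_zero, zero_add] at h1
    exact h1
  · rw [map_sub, cf_mk]
    rcases le_total n (m - N + 1).toNat with h1 | h1
    · obtain ⟨k, hk⟩ := Nat.exists_eq_add_of_le h1
      have := key n k m hm
      rwa [map_sub, ← hk] at this
    · obtain ⟨k, hk⟩ := Nat.exists_eq_add_of_le h1
      have := key (m - N + 1).toNat k m (by omega)
      rw [map_sub, ← hk] at this
      rw [← neg_sub, this, neg_zero]

end KK

end Vale.Agent.P221X
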