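import Vale.Agent.P221X.Base.Defs

/-!
# P221X: the statements of the algebraic rows (see `notes/P221/h30-proof.md`, table `p221_tasks`)

Every row proves `theorem name : RowX …` (for the variables `p`, `F`, `D`, `S` as below, with the
instance arguments `[Fact p.Prime] [CharP F p] [Finite F]`), in its own directory.
-/

noncomputable section

namespace Vale.Agent.P221X

open PowerSeries MulOpposite

variable {p : ℕ} {F : Type} [Field F]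

/-- the Euler operators `E_m u^n = binom(n, m) u^n` -/
def eul (m : ℕ) : KK F →ₗ[F] KK F where
  toFun f := KK.mk (fun n => ((Ring.choose n m : ℤ) : F) * KK.cf n f) (KK.toH f).order
    fun n hn => by rw [KK.cf_apply, HahnSeries.coeff_eq_zero_of_lt_order hn, mul_zero]
  map_add' f g := KK.ext fun n => by simp only [KK.cf_mk, map_add]; ring
  map_smul' c f := KK.ext fun n => by
    simp only [KK.cf_mk, map_smul, RingHom.id_apply, smul_eq_mul]; ring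

theorem cf_eul (m : ℕ) (f : KK F) (n : ℤ) :
    KK.cf n (eul m f) = ((Ring.choose n m : ℤ) : F) * KK.cf n f := rfl

/-- the operator `A` raises valuations by at least `n` -/
def Gain (A : Module.End F (KK F)) (n : ℤ) : Prop :=
  ∀ (m : ℤ) (z : KK F), z ∈ KK.ge m → A z ∈ KK.ge (m + n)

/-- `x ^ k`, `x = u ^ (-(p + 1))` -/
def xp (p : ℕ) (k : ℤ) : KK F := KK.uz (-((p + 1 : ℕ) : ℤ) * k)

/-- `O_k = x ^ k F[[u]]` -/
def Ox (p : ℕ) (k : ℤ) : Submodule F (KK F) := KK.ge (-((p + 1 : ℕ) : ℤ) * k)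

/-- `f = c x ^ k +` terms of lower order in `x`, and `f ∈ K'` -/
def Lead (p : ℕ) (f : KK F) (k : ℤ) (c : F) : Prop :=
  f ∈ KK.inv (p + 1) ∧ f - c • xp p k ∈ Ox p (k - 1)

/-- the polynomials in `x` -/
def Zx (p : ℕ) : Submodule F (KK F) where
  carrier := {f | f ∈ KK.inv (p + 1) ∧ ∀ n : ℤ, 0 < n → KK.cf n f = 0}
  add_mem' := fun {f g} hf hg => ⟨add_mem hf.1 hg.1, fun n hn => by
    rw [map_add, hf.2 n hn, hg.2 n hn, add_zero]⟩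
  zero_mem' := ⟨zero_mem _, fun _ _ => map_zero _⟩
  smul_mem' := fun c f hf => ⟨Submodule.smul_mem _ c hf.1, fun n hn => by
    rw [map_smul, hf.2 n hn, smul_zero]⟩

/-! ### Row DEP: depths -/

/-- Row DEP (elementary consequences of `GD`). -/
structure RowDEP (D : GD p F) : Prop where
  mono : ∀ a {m n : ℕ}, m ≤ n → Dep (D.act a) n → Dep (D.act a) m
  mul : ∀ a b n, Dep (D.act a) n → Dep (D.act b) n → Dep (D.act (a * b)) n
  inv : ∀ a n, Dep (D.act a) n → Dep (D.act a⁻¹) n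
  conj : ∀ a b n, Dep (D.act a) n → Dep (D.act (b * a * b⁻¹)) n
  pow : ∀ a n, Dep (D.act a) n → Dep (D.act (a ^ p)) (p * n)
  gain : ∀ a (n : ℕ), Dep (D.act a) n → Gain ((D.actK a).toLinearMap - 1) n
  odd : ∀ l a, a ∈ D.Gf (2 * l + 1) → Dep (D.act a) (p ^ l)
  even : ∀ l a, a ∈ D.Gf (2 * l + 2) → Dep (D.act a) ((p + 1) * p ^ l)
  g_lead : ∃ c : F, c ≠ 0 ∧ ∀ k : ℤ, Lead p (D.actK D.g (xp p k) - xp p k) (k - 1) (k * c)
  g_pow : D.actK (D.g ^ p) (xp p 1) - xp p 1 ∈ Ox p (-(p : ℤ))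
  fin : ∀ l, Finite (D.G ⧸ D.Gf l)
  card : ∀ l, Nat.card (D.G ⧸ D.Gf (l + 1)) = p ^ (2 * l)
  expand : ∀ a (z : KK F) (m : ℤ) (M : ℕ), z ∈ KK.ge m →
    D.actK a z - ∑ i ∈ Finset.range M,
      (D.actK a (KK.uz 1) * KK.uz (-1) - 1) ^ i * eul i z ∈ KK.ge (m + M)

/-! ### Row GR -/

/-- Row GR: the rings `O[[G]]` and `O[[G]] / T`. -/
def RowGR (D : GD p F) : Prop :=
  ∃ (R : Type) (_ : Ring R) (_ : Algebra F R) (S : RD D R)
    (Rf : Type) (_ : Ring Rf) (_ : Algebra F Rf), Nonempty (RF S Rf)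

variable {D : GD p F} {R : Type} [Ring R] [Algebra F R]

/-- Row MU: invariant elements commute with the projection onto `K'`; averaging. -/
structure RowMU (S : RD D R) : Prop where
  prj : ∀ r, S.mu r = r → ∀ z, S.op r (KK.prj (p + 1) z) = KK.prj (p + 1) (S.op r z)
  avg : ∀ (r : R) (M : ℕ), ∃ r' r'' : R, S.mu r' = r' ∧ r' = S.sc X ^ M * r'' ∧
    ∀ z ∈ KK.inv (p + 1), S.op r' z = KK.prj (p + 1) (S.op (S.sc X ^ M * r) z)
  lim : ∀ s : ℕ → R, (∀ n, S.mu (s n) = s n) → (∀ n, s (n + 1) - s n ∈ S.fil n) →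
    ∃ a, S.mu a = a ∧ ∀ n, a - s n ∈ S.fil n
  closed : ∀ (a : R), (∀ w, ∃ r, a - S.sc X * r ∈ S.fil w) → ∃ r, a = S.sc X * r

/-- Row F2: `u ^ (c p ^ e)` commutes with `R` up to relative gain `p ^ e`; elements of `u ^ M R` have
gain `M`, and `θ` has gain `p + 1` on `K'`. -/
structure RowF2 (S : RD D R) : Prop where
  comm : ∀ (r : R) (c : ℤ) (e : ℕ) (m : ℤ) (z : KK F), z ∈ KK.ge m →
    S.op r (KK.uz (c * p ^ e) * z) - KK.uz (c * p ^ e) * S.op r z ∈ KK.ge (m + c * p ^ e + p ^ e)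
  upow : ∀ (r : R) (M : ℕ), Gain (S.op (S.sc X ^ M * r)) M
  theta : ∀ θ, S.IsTheta θ → ∀ (k : ℤ) (z : KK F), z ∈ KK.inv (p + 1) → z ∈ Ox p k →
    S.op θ z ∈ KK.inv (p + 1) ∧ S.op θ z ∈ Ox p (k - 1)

/-- Row SB: standard bases (left ideals; apply it to the opposite ring for right ideals). -/
structure RowSB {ι : Type} {wt : ι → ℕ} {A : Type} [Ring A] [Algebra F A]
    (Φ : FRing F ι wt A) : Prop where
  basis : ∀ I : Submodule A A, ∃ (n : ℕ) (l : Fin n → A) (d : Fin n → ℕ),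
    (∀ i, l i ∈ I ∧ l i ∈ Φ.fil (d i)) ∧ ∀ (w : ℕ) (a : A), a ∈ I → a ∈ Φ.fil w →
      ∃ r : Fin n → A, (∀ i, r i ∈ Φ.fil (w - d i)) ∧ a = ∑ i, r i * l i
  closed : ∀ (I : Submodule A A) (a : A), (∀ w, ∃ b ∈ I, a - b ∈ Φ.fil w) → a ∈ I
  codim : ∀ (I : Submodule A A) (s : Set (MvPolynomial ι F)) (B : Finset (ι →₀ ℕ)),
    (∀ φ ∈ s, ∃ w, ∃ a ∈ I, a ∈ Φ.fil w ∧ Φ.sym w a = φ) →
    (∀ m : ι →₀ ℕ, m ∉ B → ∃ φ ∈ Ideal.span s, MvPolynomial.monomial m (1 : F) - φ ∈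
      Submodule.span F ((fun b => MvPolynomial.monomial b (1 : F)) '' (B : Set (ι →₀ ℕ)))) →
    ∃ v : B → A, ∀ a : A, ∃ c : B → F, a - ∑ b, c b • v b ∈ I
  dom : ∀ a b : A, a * b = 0 → a = 0 ∨ b = 0

/-- the opposite ring -/
def FRing.opp {ι : Type} {wt : ι → ℕ} {A : Type} [Ring A] [Algebra F A] (Φ : FRing F ι wt A) :
    FRing F ι wt Aᵐᵒᵖ where
  fil w := (Φ.fil w).comap (MulOpposite.opLinearEquiv F).symm.toLinearMap
  fil_zero a := Φ.fil_zero a.unop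
  anti h _ ha := Φ.anti h ha
  mul_mem := fun {v w a b} ha hb => by
    have := Φ.mul_mem (show b.unop ∈ Φ.fil w from hb) (show a.unop ∈ Φ.fil v from ha)
    rw [add_comm] at this
    exact this
  sym w := Φ.sym w ∘ₗ (MulOpposite.opLinearEquiv F).symm.toLinearMap
  sym_hom ha := Φ.sym_hom ha
  sym_eq_zero ha := Φ.sym_eq_zero ha
  sym_surj h := by
    obtain ⟨a, ha, h'⟩ := Φ.sym_surj h
    exact ⟨op a, ha, h'⟩
  sym_mul := fun {v w a b} ha hb => by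
    have := Φ.sym_mul (show b.unop ∈ Φ.fil w from hb) (show a.unop ∈ Φ.fil v from ha)
    rw [add_comm, mul_comm (Φ.sym w _)] at this
    exact this
  sym_one := Φ.sym_one
  sep a h := unop_injective (Φ.sep a.unop h)
  complete s h := by
    obtain ⟨a, ha⟩ := Φ.complete (fun n => (s n).unop) h
    exact ⟨op a, ha⟩

/-! ### Row NC -/

/-- Row NC: the injective module `Q / O`. -/
def RowNC (S : RD D R) : Prop :=
  ∀ θ : R, θ ∈ S.fil 3 → S.sym 3 θ = MvPolynomial.X 3 →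
    ∃ (J : InjD R) (x₀ : J.Idx), J.c x₀ = θ ∧ J.i x₀ ≠ 0 ∧
      (∀ y s b, J.Arr x₀ y s b → S.NotL θ s) ∧ ∀ r, op r • J.i x₀ ≠ 0 → S.NotR θ r

/-- Row COI: coinduction of `InjD` along `ρ : R → Γ` with a trace and dual bases. -/
def RowCOI : Prop :=
  ∀ (R Γ : Type) [Ring R] [Ring Γ] (ρ : R →+* Γ) (tr : Γ →+ R) (n : ℕ) (σ σ' : Fin n → Γ),
    (∀ r x, tr (ρ r * x) = r * tr x) → (∀ r x, tr (x * ρ r) = tr x * r) →
    (∀ x, x = ∑ j, ρ (tr (x * σ j)) * σ' j) → (∀ x, x = ∑ j, σ j * ρ (tr (σ' j * x))) →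
    (∀ j k, tr (σ' j * σ k) = if j = k then 1 else 0) →
    ∀ J : InjD R, ∃ (J' : InjD Γ) (e : J.Idx ≃ J'.Idx), (∀ x, J'.c (e x) = ρ (J.c x)) ∧
      (∀ x y a b, J'.Arr (e x) (e y) a b → ∃ a' b', a = ρ a' ∧ b = ρ b' ∧ J.Arr x y a' b') ∧
      ∀ x m, op m • J'.i (e x) = 0 ↔ ∀ y, op (tr (m * y)) • J.i x = 0

/-! ### Row DD -/

/-- Row DD: divided differences. -/
def RowDD (S : RD D R) : Prop :=
  ∀ m : ℕ, ∃ cst : ℕ, (p - 1) * cst ≤ (p + 1) * m ∧ ∃ r : R,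
    Gain (S.op r - S.op (S.sc X ^ cst) * eul m) (cst + 1)

/-! ### Route α -/

/-- Row EX: `θ` preserves `F[x]`, has infinite cokernel on it and infinite compact kernel. -/
def RowEX (S : RD D R) : Prop :=
  ∃ θ : R, S.IsTheta θ ∧ (∀ z ∈ Zx p, S.op θ z ∈ Zx p) ∧
    (∃ (q : ℕ → KK F) (v : ℕ → ℤ), StrictAnti v ∧ v 0 < 0 ∧
      ∀ n, Lead p (q n) (v n) 1 ∧ S.op θ (q n) = 0) ∧
    ∃ (l : ℕ → KK F →ₗ[F] F) (t : ℕ → ℕ), StrictMono t ∧ ∀ n, l n (xp p (t n)) = 1 ∧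
      (∀ m < t n, l n (xp p m) = 0) ∧ ∀ z ∈ Zx p, l n (S.op θ z) = 0

/-- Row RIGL: rigidity, left version. -/
def RowRIGL (S : RD D R) : Prop :=
  ∀ θ s : R, S.IsTheta θ → S.NotL θ s →
    ∃ W : Submodule F (KK F), FiniteDimensional F W ∧
      ∀ z, S.op θ z = 0 → S.op s z = 0 → z ∈ W

/-- Row RIGR: rigidity, right version (continuous functionals on `K`). -/
def RowRIGR (S : RD D R) : Prop :=
  ∀ θ r : R, S.IsTheta θ → S.NotR θ r →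
    ∃ W : Submodule F (KK F →ₗ[F] F), FiniteDimensional F W ∧
      ∀ l : KK F →ₗ[F] F, (∃ n, ∀ z ∈ KK.ge n, l z = 0) → (∀ z, l (S.op θ z) = 0) →
        (∀ z, l (S.op r z) = 0) → l ∈ W

/-- the common output of the two routes -/
def RowKEY (S : RD D R) : Prop :=
  ∃ θ : R, S.IsTheta θ ∧ ∃ Θ : ThetaData (p + 1) S.op θ, Θ.Key (S.NotL θ) (S.NotR θ)

/-- Row KA: route α gives the key proposition. -/
def RowKA (S : RD D R) : Prop := RowMU S → RowF2 S → RowEX S → RowRIGL S → RowRIGR S → RowKEY S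

/-! ### Route β -/

/-- A matching schedule: the source `k` is matched with the target `k - n` if `mt k = some n`. -/
structure Sched (p : ℕ) where
  mt : ℤ → Option ℕ
  pos : ∀ k n, mt k = some n → 1 ≤ n
  inj : ∀ k k' n n', mt k = some n → mt k' = some n' → k - n = k' - n' → k = k'
  one : ∀ k, mt k = some 1 ↔ ¬ (p : ℤ) ∣ k
  /-- the events at time `n`: `k` is not matched and `k - n` is not a target before time `n` -/
  Ev : ℕ → ℤ → Prop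
  ev_iff : ∀ n k, Ev n k ↔ (∀ n' < n, mt k ≠ some n') ∧
    ∀ k' n', n' < n → mt k' = some n' → k' - n' ≠ k - n
  step : ∀ n k₀, 2 ≤ n → Ev n k₀ → ∃ b r : ℕ, 1 ≤ b ∧ r < p ∧
    ((p + 1) * n < p ^ (b + 1) ∨ (n = p + 1 ∧ b = 1)) ∧
    2 * (r + 1) * p ^ b + p ^ (b - 1) ≤ (p + 1) * n ∧
    (∀ k, Ev n (k + p ^ (b + 1)) ↔ Ev n k) ∧
    (∀ k, mt (k + p ^ (b + 1)) = some n ↔ mt k = some n) ∧
    ∀ k, ∃ s : Finset ℕ, s.card ≤ r ∧ ∀ δ < p, Ev n (k + δ * p ^ b) →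
      mt (k + δ * p ^ b) ≠ some n → δ ∈ s
  cross : ∀ c : ℤ, {k | ∃ n, mt k = some n ∧ c < k ∧ k - n ≤ c}.Finite
  count : ∃ ν : ℕ, p < ν ^ 3 ∧ ∀ b : ℕ, ∃ s t : Finset ℤ, ν ^ b ≤ s.card ∧ ν ^ b ≤ t.card ∧
    (∀ k ∈ s, -(p : ℤ) ^ (b + 2) < k ∧ k < 0 ∧ mt k = none) ∧
    ∀ k ∈ t, 0 < k ∧ k < (p : ℤ) ^ (b + 2) ∧ ∀ k' n, mt k' = some n → k' - n ≠ k

/-- Row COMB -/
def RowCOMB (p : ℕ) : Prop := 10000 ≤ p → Nonempty (Sched p)

/-- Row REAL: functions of `k` which are polynomials of degree `≤ r` in the digit `b` on each class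
modulo `p ^ b` are the leading coefficients of invariant elements of `u ^ M R`. -/
def RowREAL (S : RD D R) : Prop :=
  ∀ (n b r M : ℕ) (s : ℤ → F), r < p → 2 * (r + 1) * p ^ b + M ≤ (p + 1) * n →
    (∀ k, s (k + p ^ (b + 1)) = s k) →
    (∀ k : ℤ, ∃ P : Polynomial F, P.natDegree ≤ r ∧ ∀ δ : ℕ, s (k + δ * p ^ b) = P.eval (δ : F)) →
    ∃ σ σ' : R, S.mu σ = σ ∧ σ = S.sc X ^ M * σ' ∧
      (∀ (k : ℤ) (z : KK F), z ∈ KK.inv (p + 1) → z ∈ Ox p k → S.op σ z ∈ Ox p (k - n)) ∧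
      ∀ k : ℤ, Lead p (S.op σ (xp p k)) (k - n) (s k)

/-- the output of the engine -/
def Eng (S : RD D R) (M : Sched p) (θ : R) : Prop :=
  S.IsTheta θ ∧ ∀ k : ℤ, ∃ f : KK F, Lead p f k 1 ∧
    (∀ n, M.mt k = some n → ∃ c : F, c ≠ 0 ∧ Lead p (S.op θ f) (k - n) c) ∧
    (M.mt k = none → S.op θ f = 0)

/-- Row ENG -/
def RowENG (S : RD D R) : Prop :=
  p < Nat.card F → RowDEP D → RowMU S → RowF2 S → RowREAL S → ∀ M : Sched p, ∃ θ, Eng S M θ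

/-- Row LAG: Lagrange approximation by coset representatives (left and right coefficients). -/
def RowLAG (S : RD D R) : Prop :=
  ∀ j : ℕ, 1 ≤ j → ∃ (N : ℕ) (a : Fin N → D.G),
    (∀ r : R, ∃ c : Fin N → PowerSeries F,
      Gain (S.op (r - ∑ x, S.sc (c x) * S.gr (a x))) (p ^ (3 * j - 1))) ∧
    (∀ r₀ r₁ r₂ : R, ∃ c : Fin N → PowerSeries F, (∀ x, X ∣ c x) ∧
      Gain (S.op (S.sc X * r₀ + r₁ * (S.gr D.γ₁ ^ p ^ j - 1) + r₂ * (S.gr D.γ₂ ^ p ^ j - 1) -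
        ∑ x, S.sc (c x) * S.gr (a x))) (p ^ (3 * j - 1))) ∧
    (∀ r : R, ∃ c : Fin N → PowerSeries F,
      Gain (S.op (r - ∑ x, S.gr (a x) * S.sc (c x))) (p ^ (3 * j - 1))) ∧
    ∀ r₀ r₁ r₂ : R, ∃ c : Fin N → PowerSeries F, (∀ x, X ∣ c x) ∧
      Gain (S.op (r₀ * S.sc X + (S.gr D.γ₁ ^ p ^ j - 1) * r₁ + (S.gr D.γ₂ ^ p ^ j - 1) * r₂ -
        ∑ x, S.gr (a x) * S.sc (c x))) (p ^ (3 * j - 1))

/-- Row CNTL: the counting lemma for elements of `K`. -/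
def RowCNTL (S : RD D R) : Prop :=
  ∀ θ s : R, S.IsTheta θ → S.NotL θ s → ∃ δ a : ℕ, ∀ (j M : ℕ) (z : Fin M → KK F) (n : Fin M → ℤ),
    1 ≤ j → Function.Injective n → (∀ i i', n i - n i' < (p : ℤ) ^ (3 * j - 2)) →
    (∀ i, z i ∈ KK.ge (n i) ∧ KK.cf (n i) (z i) ≠ 0 ∧ S.op θ (z i) = 0 ∧
      S.op s (z i) ∈ KK.ge (n i + 4 * p ^ (3 * j - 2) + 1 + a)) → M ≤ δ * p ^ j

/-- Row CNTR: the counting lemma for continuous functionals on `K`. -/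
def RowCNTR (S : RD D R) : Prop :=
  ∀ θ r : R, S.IsTheta θ → S.NotR θ r → ∃ δ a : ℕ,
    ∀ (j M : ℕ) (l : Fin M → KK F →ₗ[F] F) (n : Fin M → ℤ),
    1 ≤ j → Function.Injective n → (∀ i i', n i - n i' < (p : ℤ) ^ (3 * j - 2)) →
    (∀ i, (∀ z ∈ KK.ge (n i + 1), l i z = 0) ∧ l i (KK.uz (n i)) ≠ 0 ∧
      (∀ z, l i (S.op θ z) = 0) ∧
      ∀ z ∈ KK.ge (n i - (4 * p ^ (3 * j - 2) + a)), l i (S.op r z) = 0) → M ≤ δ * p ^ j

/-- Row KB: route β gives the key proposition. -/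
def RowKB (S : RD D R) : Prop :=
  RowMU S → RowF2 S → RowCNTL S → RowCNTR S → ∀ (M : Sched p) (θ : R), Eng S M θ → RowKEY S

/-! ### Assembly -/

theorem algOut_of (S : RD D R) (hNC : RowNC S) (hK : RowKEY S) : Nonempty (AlgOut S) := by
  obtain ⟨θ, hθ, Θ, hΘ⟩ := hK
  obtain ⟨J, x₀, h1, h2, h3, h4⟩ := hNC θ hθ.mem hθ.sym
  exact ⟨⟨θ, hθ.mu, J, x₀, h1, h2, Θ, fun s r ⟨y, b, hs⟩ hr => hΘ s r (h3 y s b hs) (h4 r hr)⟩⟩

end Vale.Agent.P221X
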