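import Vale.Agent.P221X.Base.Spec
import Vale.Agent.P221X.NM.Shift
import Vale.Agent.P251.S.LocMod

/-!
# P221X: the interface between the topological blocks

* `RA S Rf AA` : the rings `Rf = O[[G]]` over `R = Rf / T` and `AA = O[[G']]` (acting on `K`);
* `ED` : the objects `E`, `A = E / T`, `J` in a stable homotopy category (output of TOP-C);
* `AlgA S` : the output of the algebraic blocks (route α);
* `RowTOPB` : the abstract theorem (TOP-A, TOP-B): an object `X` with finite `π_* (X ⊗ V)` which is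
  not in `Thick b`.
-/

noncomputable section

open CategoryTheory MonoidalCategory Limits Pretriangulated MulOpposite PowerSeries

namespace Vale.Agent.P221X

open Vale.Agent.P251 Vale.Agent.P251.T Vale.Agent.P251.S

variable {p : ℕ} {F : Type} [Field F] {D : GD p F} {R : Type} [Ring R] [Algebra F R]

/-- The ring side: `Rf ⊆ AA` with a trace and dual bases, `R = Rf / tt`. -/
structure RA (S : RD D R) (Rf AA : Type) [Ring Rf] [Ring AA] where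
  pr : Rf →+* R
  pr_surj : Function.Surjective pr
  tt : Rf
  tt_reg : ∀ r, tt * r = 0 → r = 0
  pr_eq_zero : ∀ r, pr r = 0 ↔ ∃ s, r = tt * s
  inc : Rf →+* AA
  tt_comm : ∀ x, inc tt * x = x * inc tt
  tr : AA →+ Rf
  tr_left : ∀ r x, tr (inc r * x) = r * tr x
  tr_right : ∀ r x, tr (x * inc r) = tr x * r
  n : ℕ
  σ : Fin n → AA
  σ' : Fin n → AA
  basis_left : ∀ x, x = ∑ j, inc (tr (x * σ j)) * σ' j
  basis_right : ∀ x, x = ∑ j, σ j * inc (tr (σ' j * x))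
  dual : ∀ j k, tr (σ' j * σ k) = if j = k then 1 else 0
  act : AA →+* AddMonoid.End (KK F)
  act_inc : ∀ r z, act (inc r) z = S.op (pr r) z
  e : AA
  e_idem : e * e = e
  act_e : ∀ z, act e z = KK.prj (p + 1) z
  tr_e : tr e = 1
  e_comm : ∀ r, S.mu (pr r) = pr r → ∃ y, e * inc r - inc r * e = inc tt * y
  /-- the Frobenius of the coefficients -/
  τ : KK F →+ KK F
  τ_smul : ∀ (c : F) (z : KK F), τ (c • z) = c ^ p • τ z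
  /-- `e AA = e Rf + e Rf τ` -/
  sem : ∀ x, ∃ r', ∀ z, act (e * x) z =
    KK.prj (p + 1) (S.op (pr (tr (e * x))) z + S.op (pr r') (τ z))

/-- The output of the algebraic blocks (route α). -/
structure AlgA (S : RD D R) where
  dom : NoZeroDivisors R
  O : NM.OreData R
  θ : R
  θ_ne : θ ≠ 0
  θ_mu : S.mu θ = θ
  inv_ne : O.inv θ ≠ 0
  θ_prj : ∀ z, S.op θ (KK.prj (p + 1) z) = KK.prj (p + 1) (S.op θ z)
  θ_ge : ∀ (m : ℤ) (z : KK F), z ∈ KK.ge m → S.op θ z ∈ KK.ge m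
  Θ : ThetaData (p + 1) S.op θ
  pol_mem : ∀ j, Θ.pol j ∈ Zx p
  rho : KK F →ₗ[F] KK F
  rho_θ : ∀ z, rho (S.op θ z) = 0
  rho_prj : ∀ z, rho (KK.prj (p + 1) z) = rho z
  rho_c : ∀ i, rho (Θ.c i) = Θ.q i
  rho_mem : ∀ z, rho z ∈ KK.inv (p + 1) ∧ rho z ∈ KK.ge 0
  rho_fin : ∀ N : ℕ, (rho '' {z | z ∈ KK.ge (-N : ℤ)}).Finite
  rigA : ∀ r : R, op r • O.inv θ ≠ 0 →
    ¬ ∃ W : Submodule F (KK F), FiniteDimensional F W ∧ ∀ z, rho (S.op r z) ∈ W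
  rigB : ∀ s ∈ O.Sig, {z : KK F | S.op θ z = 0 ∧ S.op s z = 0}.Finite
  /-- Schur's lemma for the `R`-module `K` -/
  schur : ∀ φ : KK F →+ KK F, (∀ r z, φ (S.op r z) = S.op r (φ z)) → ∃ c : F, ∀ z, φ z = c • z

universe u

variable {T : Type u} [Category.{0} T] [Preadditive T] [HasZeroObject T] [HasShift T ℤ]
  [∀ n : ℤ, (shiftFunctor T n).Additive] [Pretriangulated T] [IsTriangulated T]
  [MonoidalCategory T] [SymmetricCategory T] [TensorTriangulated T] [MonoidalClosed T]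
  [HasCoproducts.{0} T] [HasProducts.{0} T] [StableCat T]

/-- The topological data. `M = S / p`, `b = B ⊗ M`, `V` is the finite complex of type three,
`Lh`, `Le` are the localisations of height two and one, `q = 2 p - 2`. -/
structure ED {S : RD D R} {Rf AA : Type} [Ring Rf] [Ring AA] (A₀ : RA S Rf AA) (q : ℤ)
    (b V : T) where
  M : T
  iM : 𝟙_ T ⟶ M
  δM : M ⟶ (𝟙_ T)⟦(1 : ℤ)⟧
  distM : Triangle.mk ((p : ℤ) • 𝟙 (𝟙_ T)) iM δM ∈ distTriang T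
  Kh : T
  Ke : T
  Lh : LocFunctor Kh
  Le : LocFunctor Ke
  bdd : ∀ (W : T) (N : ℤ), (∀ n ≥ N, ∀ x : Sph T n ⟶ W, x = 0) → Acyclic Kh W ∧ Acyclic Ke W
  E : T
  lam : AA →+* End E
  lam_bij : Function.Bijective lam
  pE : (p : ℤ) • 𝟙 E = 0
  van : ∀ n : ℤ, ¬ q ∣ n → ¬ q ∣ n + 1 → ∀ x : E⟦n⟧ ⟶ E, x = 0
  per : E⟦q⟧ ≅ E
  per_tt : per.hom ≫ lam (A₀.inc A₀.tt) = (lam (A₀.inc A₀.tt))⟦q⟧' ≫ per.hom
  β : E ⟶ E⟦(1 : ℤ)⟧
  β_comm : ∀ x, lam x ≫ β = β ≫ (lam x)⟦(1 : ℤ)⟧'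
  β_bij : Function.Bijective fun x : AA => (lam x ≫ β : E ⟶ E⟦(1 : ℤ)⟧)
  E_loc : IsLocal Kh E
  LeE_acyc : Acyclic Kh (Le.L.obj E)
  iE : Lh.L.obj b ⟶ E
  rE : E ⟶ Lh.L.obj b
  iE_rE : iE ≫ rE = 𝟙 _
  lat : ∀ n k : ℤ, NM.FinKer (NM.frac Lh.unit Le.unit (M⟦n⟧) (b⟦k⟧)) ∧
    NM.FinCoker (NM.frac Lh.unit Le.unit (M⟦n⟧) (b⟦k⟧))
  kV : ∀ a : ℤ, (Sph T (q * a) ⟶ Le.L.obj E) ≃+ KK F
  kV_lam : ∀ a x r, kV a (x ≫ Le.L.map (lam r)) = A₀.act r (kV a x)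
  πE_van : ∀ n : ℤ, ¬ q ∣ n → ∀ x : Sph T n ⟶ E, x = 0
  πV_van : ∀ n : ℤ, ¬ q ∣ n → ∀ x : Sph T n ⟶ Le.L.obj E, x = 0
  πE_inj : ∀ (a : ℤ) (x : Sph T (q * a) ⟶ E), x ≫ Le.unit.app E = 0 → x = 0
  πE_range : ∀ (a : ℤ) (z : KK F), z ∈ KK.ge (-a) ↔
    ∃ x : Sph T (q * a) ⟶ E, kV a (x ≫ Le.unit.app E) = z
  β_M : ∀ a : ℤ, Function.Surjective fun x : M⟦q * a⟧ ⟶ Le.L.obj E => x ≫ Le.L.map β
  E_V : IsZero (E ⊗ V)
  LeE_V : IsZero (Le.L.obj E ⊗ V)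
  A : T
  iA : E ⟶ A
  dA : A ⟶ E⟦(1 : ℤ)⟧
  distA : Triangle.mk (lam (A₀.inc A₀.tt)) iA dA ∈ distTriang T
  J : T
  ιJ : M⟦(1 : ℤ)⟧ ⟶ J
  ιJ_eq : KEq Ke ιJ
  pJ : (p : ℤ) • 𝟙 J = 0
  J_loc : ∀ I : Type, IsLocal Ke (∐ fun _ : I => J)
  J_acyc : Acyclic Kh J
  J_V : IsZero (J ⊗ V)
  πJ_van : ∀ n : ℤ, ¬ q ∣ n → ¬ q ∣ n - 1 → ∀ x : Sph T n ⟶ J, x = 0
  πJ_gen : ∀ n : ℤ, q ∣ n ∨ q ∣ n - 1 → ∃ z : Sph T n ⟶ J, (∀ x : Sph T n ⟶ J, ∃ k : ℤ, x = k • z) ∧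
    Function.Bijective fun g : J ⟶ Le.L.obj A => z ≫ g

/-- finite objects: built from the unit -/
def IsFin (V : T) : Prop := NM.Thick (𝟙_ T) V

/-- The conclusion of the abstract theorem. -/
structure Out (p : ℕ) (b V X : T) : Prop where
  pow : ∃ k : ℕ, ((p : ℤ) ^ k) • 𝟙 X = 0
  conn : ∀ n < 0, ∀ x : Sph T n ⟶ X, x = 0
  fin : ∀ n : ℤ, Finite (Sph T n ⟶ X ⊗ V)
  bdd : ∃ N : ℤ, ∀ n : ℤ, N < |n| → ∀ x : Sph T n ⟶ X ⊗ V, x = 0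
  not_thick : ¬ NM.Thick b X

/-- connective covers exist -/
def HasCov (T : Type u) [Category.{0} T] [Preadditive T] [HasZeroObject T] [HasShift T ℤ]
    [∀ n : ℤ, (shiftFunctor T n).Additive] [Pretriangulated T] [MonoidalCategory T] : Prop :=
  ∀ Y : T, ∃ (X W : T) (c : X ⟶ Y) (d : Y ⟶ W) (w : W ⟶ X⟦(1 : ℤ)⟧),
    (Triangle.mk c d w ∈ distTriang T) ∧ (∀ n < 0, ∀ x : Sph T n ⟶ X, x = 0) ∧
      (∀ n ≥ 0, ∀ x : Sph T n ⟶ W, x = 0) ∧ ∀ (k : ℤ) (f : X ⟶ W⟦k⟧), k ≤ 0 → f = 0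

/-- Row TOPB (with TOP-A): the abstract theorem. -/
def RowTOPB (T : Type u) [Category.{0} T] [Preadditive T] [HasZeroObject T] [HasShift T ℤ]
    [∀ n : ℤ, (shiftFunctor T n).Additive] [Pretriangulated T] [IsTriangulated T]
    [MonoidalCategory T] [SymmetricCategory T] [TensorTriangulated T] [MonoidalClosed T]
    [HasCoproducts.{0} T] [HasProducts.{0} T] [StableCat T] : Prop :=
  ∀ (p : ℕ) [Fact p.Prime] (F : Type) [Field F] [CharP F p] [Finite F] (D : GD p F)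
    (R : Type) [Ring R] [Algebra F R] (S : RD D R) (Rf AA : Type) [Ring Rf] [Ring AA]
    (A₀ : RA S Rf AA) (b V : T), 5 ≤ p → p < Nat.card F → HasCov T → IsFin V → AlgA S →
      ED A₀ (2 * p - 2) b V → ∃ X : T, Out p b V X

end Vale.Agent.P221X
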